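import Vale.Agent.P014X.Glu
import Vale.Agent.P014X.Cm.Exc
import Vale.Agent.P014X.Cm.Twc
import Vale.Agent.P014X.Cm.Cf
import Vale.Agent.P014X.Cm.Cg
import Vale.Agent.P014X.Cm.Ep
import Vale.Agent.P014X.Eu.Es
import Vale.Agent.P014X.Eu.Th
import Vale.Agent.P014X.Es.Raw
import Vale.Agent.P014X.Fm.Ktx
import Vale.Agent.P014X.Fm.Fmo
import Vale.Agent.P014X.Fm.Ind
import Vale.Agent.P014X.Fm.Glu
import Vale.Agent.P014X.Fm.Lao
import Vale.Agent.P014X.Fm.Pz
import Vale.Agent.P014X.Fm.Sum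
import Vale.Agent.P014X.Zr.Top
import Vale.Agent.P014X.Dv.All
import Vale.Agent.P014X.Fm.All
import Vale.Agent.P014X.Ac.All2

/-! # P014X: the wiring of the closed rows -/

set_option autoImplicit false

namespace Vale.Agent.P014X.Top

open Vale.Agent.P014U

variable [Pp]

theorem katx_of (md : P014T.Top.MODN) (lgu : P014T.Top.LGU) : KATX :=
  katx exc (twc cf cg ep eu) cf cg eu es raw Fm.gax (fmo Fm.ind Dv.dvo glu lao) Ac.anc_all Fm.psi
    Fm.fam0 (ktx ep raw Fm.psi (rr raw ep md lgu) pz sum)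

end Vale.Agent.P014X.Top
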