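import Vale.Agent.P014X.Fin
import Vale.Agent.P014X.All1
import Vale.Agent.P014W.All

/-! # P014X: the closed form -/

set_option autoImplicit false

namespace Vale.Agent.P014X.Top

open Vale.Agent.P014U Vale.Agent.P014U.Top

/-- **the formula up to an odd number, and in full for curves with complex multiplication** -/
theorem bsdm_all : BSDM :=
  bsdm P014W.bsdn_all (katx_of P014T.Top.md_all P014T.Top.lgu_all) La.kti (bv0 P014T.Top.md_all)
    (Pl.bv1_all P014T.Top.md_all P014T.Nv.nvd_all) Tv.inv

end Vale.Agent.P014X.Top
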