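import Vale.Agent.P004K.St2
import Vale.Agent.P004M.TE.All
import Vale.Agent.P014U.Base
import Vale.Agent.P022E.GW.Defs
import Vale.Agent.P027M.S.Defs

/-! # P014X (curves with complex multiplication): the datum, ray class groups, elliptic units -/

set_option autoImplicit false
set_option linter.all false

open NumberField QuadraticAlgebra
open scoped Classical

noncomputable section

namespace Vale.Agent.P014X

open Vale.Agent.P022 (Qb GQ IsConj)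
open Vale.Agent.P027M.S (Inert)
open Vale.Agent.P022E.GW (Ov Fb)
open P027H P027M.M
open P004M.TE (Pt ga al)
open P004K (Un)

/-- the quadratic algebra `ω² = a + b ω` -/
abbrev Qa (a b : ℤ) (R : Type) [CommRing R] : Type := QuadraticAlgebra R (a : R) (b : R)

/-- change of coefficients -/
def qm (a b : ℤ) {R S : Type} [CommRing R] [CommRing S] (f : R →+* S) : Qa a b R →+* Qa a b S where
  toFun x := ⟨f x.re, f x.im⟩
  map_one' := QuadraticAlgebra.ext f.map_one f.map_zero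
  map_zero' := QuadraticAlgebra.ext f.map_zero f.map_zero
  map_add' x y := QuadraticAlgebra.ext (f.map_add _ _) (f.map_add _ _)
  map_mul' x y := QuadraticAlgebra.ext (by simp) (by simp)

/-- `ω - ω̄` -/
def dl (a b : ℤ) (R : Type) [CommRing R] : Qa a b R := ⟨-b, 2⟩

/-- the lattice `Ω O` -/
def La (Ω w : ℂ) : Submodule ℤ ℂ := Submodule.span ℤ {Ω, Ω * w}

/-- **a curve with multiplication by the maximal order**; `c` is the complex conjugation -/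
structure Cd (A B : ℤ) where
  a : ℤ
  b : ℤ
  j : Qa a b ℤ →+* 𝓞 Qb
  G : Subgroup GQ
  c : GQ
  Ω : ℂ
  η : Qa a b ℤ
  act : Qa a b ℤ →+* AddMonoid.End (Pt A B)
  tp : Qa a b ℤ → Pt A B
  el : 4 * A ^ 3 + 27 * B ^ 2 ≠ 0
  neg : b ^ 2 + 4 * a < 0
  inj : Function.Injective j
  pid : IsPrincipalIdealRing (Qa a b ℤ)
  im : 0 < (io (j ω : Qb)).im
  mem : ∀ g, g ∈ G ↔ g • j ω = j ω
  cc : ∀ x, io (c x) = starRingEnd ℂ (io x)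
  Ω0 : Ω ≠ 0
  eta : starRingEnd ℂ Ω = io (j η : Qb) * Ω
  e2 : g2 (La Ω (io (j ω : Qb))) = -4 * A
  e3 : g3 (La Ω (io (j ω : Qb))) = -4 * B
  uact : ∀ e z y, Un (La Ω (io (j ω : Qb))) z y → Un (La Ω (io (j ω : Qb))) (io (j e : Qb) * z) (act e y)
  utp : ∀ m ≠ 0, Un (La Ω (io (j ω : Qb))) (Ω / io (j m : Qb)) (tp m)

/-- the first coordinate -/
def xc {A B : ℤ} : Pt A B → Qb
  | .zero => 0
  | .some x _ _ => x

namespace Cd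

variable {A B : ℤ} (D : Cd A B)

/-- the order -/
abbrev O : Type := Qa D.a D.b ℤ

/-- the complex embedding -/
def J (x : D.O) : ℂ := io (D.j x : Qb)

/-- the lattice -/
abbrev L : Submodule ℤ ℂ := La D.Ω (D.J ω)

/-- the norm -/
def nm (x : D.O) : ℕ := x.norm.natAbs

/-- `g` acts on the points of order `m` as `β` -/
def Ac (m : D.O) (g : GQ) (β : D.O) : Prop := g ∈ D.G ∧ ga g (D.tp m) = D.act β (D.tp m)

/-- the group of the field of the points of order `m` -/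
def Hf (m : D.O) : Subgroup GQ := D.G ⊓
  { carrier := {g | ga g (D.tp m) = D.tp m}
    mul_mem' := fun {g h} a b => by
      show ga (g * h) _ = _
      rw [P004M.TE.ga_mul, b, a]
    one_mem' := P004M.TE.ga_one _
    inv_mem' := fun {g} a => by
      show ga g⁻¹ _ = _
      conv_lhs => rw [← show ga g _ = _ from a, ← P004M.TE.ga_mul, inv_mul_cancel, P004M.TE.ga_one] }

/-- the group of the ray class field -/
def Hm (m : D.O) : Subgroup GQ := Subgroup.closure {g | ∃ ζ, IsUnit ζ ∧ D.Ac m g ζ}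

/-- `g` is a Frobenius element of the prime `π` at `P` (`k = 1`) or an inertia element (`k = 0`) -/
structure Fr (π : D.O) (P : Ideal (𝓞 Qb)) (k : ℕ) (g : GQ) : Prop where
  pr : Prime π
  pP : P.IsPrime
  mem : D.j π ∈ P
  G : g ∈ D.G
  eq : ∀ x : 𝓞 Qb, g • x - x ^ D.nm π ^ k ∈ P

/-- the points killed by `α` -/
def tor (α : D.O) : Finset (Pt A B) :=
  if h : {T | D.act α T = 0}.Finite then h.toFinset else ∅

/-- **torsion points and ray class fields** -/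
structure Cf : Prop where
  nrm : D.G.Normal
  opn : IsOpen (D.G : Set GQ)
  cG : ∀ g, g ∉ D.G ↔ g * D.c ∈ D.G
  c2 : D.c * D.c = 1
  fix : ∀ g ∈ D.G, ∀ e, g • D.j e = D.j e
  cj : ∀ g ∉ D.G, ∀ e, g • D.j e = D.j (star e)
  lin : ∀ g ∈ D.G, ∀ e T, ga g (D.act e T) = D.act e (ga g T)
  sem : ∀ g ∉ D.G, ∀ e T, ga g (D.act e T) = D.act (star e) (ga g T)
  un : ∀ e : D.O, IsUnit e → e ^ 12 = 1
  eu : IsUnit D.η
  ker : ∀ m ≠ 0, ∀ x, D.act x (D.tp m) = 0 ↔ m ∣ x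
  gen : ∀ m ≠ 0, ∀ T, T ∈ D.tor m ↔ ∃ x, T = D.act x (D.tp m)
  tr : ∀ m ≠ 0, ∀ T, T ∈ D.tor m ↔ D.act m T = 0
  crd : ∀ m ≠ 0, (D.tor m).card = D.nm m
  dv : ∀ m ≠ 0, ∀ m' ≠ 0, D.act m' (D.tp (m * m')) = D.tp m
  ctp : ∀ m ≠ 0, ga D.c (D.tp m) = D.act D.η (D.tp (star m))
  ac : ∀ m ≠ 0, ∀ g ∈ D.G, ∃ β, IsCoprime β m ∧ D.Ac m g β
  hm : ∀ m ≠ 0, ∀ g, g ∈ D.Hm m ↔ ∃ ζ, IsUnit ζ ∧ D.Ac m g ζ
  oH : ∀ m ≠ 0, IsOpen (D.Hf m : Set GQ)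
  det : ∀ (n : ℕ) g β, n ≠ 0 → D.Ac n g β → ∀ z : Qb, z ^ n = 1 → g z = z ^ D.nm β
  mt : ∀ π P k g, D.Fr π P k g → ∃ ζ, IsUnit ζ ∧ ∀ m ≠ 0, IsCoprime m π → D.Ac m g (ζ * π ^ k)
  fr : ∀ π, Prime π → ∀ P, P.IsPrime → D.j π ∈ P → ∃ g, D.Fr π P 1 g
  bel : ∀ l P, Ov l P → ∃ π, Prime π ∧ D.j π ∈ P ∧ π ∣ l
  onto : ∀ m ≠ 0, ∀ β, IsCoprime β m → ∃ g ζ, IsUnit ζ ∧ D.Ac m g (ζ * β)
  good : ∀ l P i, Ov l P → ¬ (l : ℤ) ∣ 6 * (4 * A ^ 3 + 27 * B ^ 2) → Inert P i →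
    ∀ m ≠ 0, D.j m ∉ P → i ∈ D.Hf m
  spl : ∀ l P φ, Ov l P → ¬ (l : ℤ) ∣ D.b ^ 2 + 4 * D.a → Fb l P φ → (∀ i, Inert P i → i ∈ D.G) ∧
    (φ ∈ D.G → ∃ π : D.O, π * star π = l ∧ D.j (star π) ∉ P ∧ D.Fr π P 1 φ) ∧
    (φ ∉ D.G → D.Fr l P 1 (φ * φ))

/-- **class field theory**; `N` is a multiple of the conductor -/
structure Cg (N : ℕ) : Prop where
  ne : N ≠ 0
  pf : ∀ l : ℕ, l.Prime → (l ∣ N ↔ (l : ℤ) ∣ 6 * (4 * A ^ 3 + 27 * B ^ 2))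
  hf : ∀ m ≠ 0, (N : D.O) ∣ m → D.Hm m = D.Hf m
  sep : ∀ ζ : D.O, IsUnit ζ → (N : D.O) ∣ ζ - 1 → ζ = 1
  cond : ∀ (M : Type) [CommMonoid M] (χ : D.G →* M) (m : ℕ) (T : Finset ℕ), m ≠ 0 →
    (∀ g : D.G, g.1 ∈ D.Hm m → χ g = 1) →
    (∀ l P, ∀ i : D.G, Ov l P → l ∉ T → Inert P i → χ i = 1) →
    ∃ m' : ℕ, m' ≠ 0 ∧ m'.primeFactors ⊆ T ∧ ∀ g : D.G, g.1 ∈ D.Hm m' → χ g = 1
  neg : ∀ l P, Ov l P → (l : ℤ) ∣ D.b ^ 2 + 4 * D.a → ∃ i, Inert P i ∧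
    ∀ m ≠ 0, D.j m ∉ P → D.Ac m i (-1)

/-- `ε` is the finite part of the character: the value on the ideal `(β)` is `ε β * β` -/
structure Ep (N : ℕ) (ε : D.O → D.O) : Prop where
  zero : ∀ β : D.O, ¬ IsCoprime β (N : D.O) → ε β = 0
  un : ∀ β : D.O, IsCoprime β (N : D.O) → IsUnit (ε β)
  mul : ∀ β γ, ε (β * γ) = ε β * ε γ
  per : ∀ β γ, ε (β + N * γ) = ε β
  inv : ∀ ζ, IsUnit ζ → ε ζ * ζ = 1
  cj : ∀ β, ε (star β) = star (ε β)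
  ac : ∀ m ≠ 0, (N : D.O) ∣ m → ∀ β, IsCoprime β m → ((∃ g, D.Ac m g β) ↔ ε β = 1)
  int : ∀ n : ℤ, ε n ^ 2 = 1 ∨ ε n = 0
  an : ∀ n : ℕ, n.Coprime N → (Nat.card D.Oˣ : D.O) * (al A B n : D.O) =
    ∑ᶠ x ∈ {x : D.O | D.nm x = n}, ε x * x

/-! ### elliptic units -/

/-- `Θ = k / ∏ (x - x T)` is fixed by all norms prime to `α` -/
structure Th (α : D.O) (Θ : Pt A B → Qb) : Prop where
  eq : ∃ k ≠ 0, ∀ Q, D.act α Q ≠ 0 → Θ Q * ∏ T ∈ (D.tor α).erase 0, (xc Q - xc T) = k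
  dis : ∀ β ≠ 0, IsCoprime β α → ∀ Q, D.act (α * β) Q ≠ 0 →
    ∏ T ∈ D.tor β, Θ (Q + T) = Θ (D.act β Q)

/-- the function -/
def th (α : D.O) : Pt A B → Qb := Classical.epsilon (D.Th α)

/-- the unit of conductor `m` -/
def un (α m : D.O) : Qb := D.th α (D.tp m)

/-- the properties of the functions -/
structure Eu : Prop where
  th : ∀ α, IsCoprime α 6 → D.Th α (D.th α)
  gal : ∀ α, IsCoprime α 6 → ∀ Q, D.act α Q ≠ 0 → ∀ g ∈ D.G, g (D.th α Q) = D.th α (ga g Q)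
  cj : ∀ α, IsCoprime α 6 → ∀ Q, D.act α Q ≠ 0 → ∀ g ∉ D.G, g (D.th α Q) = D.th (star α) (ga g Q)
  inv : ∀ α, IsCoprime α 6 → ∀ Q, D.act α Q ≠ 0 → ∀ ζ, IsUnit ζ →
    D.th α (D.act ζ Q) = D.th α Q ∧ D.th (ζ * α) Q = D.th α Q
  smo : ∀ α α', IsCoprime α 6 → IsCoprime α' 6 → ∀ Q, D.act (α * α') Q ≠ 0 →
    D.th α (D.act α' Q) * D.th α' Q ^ D.nm α = D.th α' (D.act α Q) * D.th α Q ^ D.nm α'

/-- `x` is a unit at `P` -/
def Uo (P : Ideal (𝓞 Qb)) (x : Qb) : Prop := ∃ s t : 𝓞 Qb, s ∉ P ∧ t ∉ P ∧ (s : Qb) * x = t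

/-- representatives of `H / H'` -/
def Tv (H H' : Subgroup GQ) (T : Finset GQ) : Prop :=
  (∀ s ∈ T, s ∈ H) ∧ ∀ g ∈ H, ∃! s, s ∈ T ∧ s⁻¹ * g ∈ H'

/-- admissible conductors: the units are separated -/
structure Ad (p : ℕ) (α m : D.O) : Prop where
  ne : m ≠ 0
  dv : (p : D.O) ^ 2 ∣ m
  cop : IsCoprime α (6 * m)

/-- **the Euler system of units** -/
structure Es (p : ℕ) : Prop where
  ne : ∀ α m, D.Ad p α m → D.un α m ≠ 0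
  fix : ∀ α m, D.Ad p α m → ∀ g ∈ D.Hm m, g (D.un α m) = D.un α m
  two : ∀ α m π T, D.Ad p α (m * π) → D.Ad p α m → Prime π → π ∣ m → Tv (D.Hm m) (D.Hm (m * π)) T →
    ∏ s ∈ T, s (D.un α (m * π)) = D.un α m
  odd : ∀ α m π T P φ, D.Ad p α (m * π) → D.Ad p α m → ¬ π ∣ m → D.Fr π P 1 φ →
    Tv (D.Hm m) (D.Hm (m * π)) T →
    (∏ s ∈ T, s (D.un α (m * π))) * φ⁻¹ (D.un α m) = D.un α m
  smo : ∀ α α' m g g' ζ ζ', D.Ad p α m → D.Ad p α' m → IsUnit ζ → IsUnit ζ' → D.Ac m g (ζ * α) →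
    D.Ac m g' (ζ' * α') → g' (D.un α m) * D.un α' m ^ D.nm α = g (D.un α' m) * D.un α m ^ D.nm α'
  cj : ∀ α m, D.Ad p α m → D.c (D.un α m) = D.un (star α) (star m)
  unit : ∀ α m, D.Ad p α m → ∀ l P, Ov l P → l ≠ p → Uo P (D.un α m)

end Cd

/-! ## rows -/

/-- the period lattice has a multiplication which is not real -/
def IsCM (A B : ℤ) : Prop := ∃ (Λ : Submodule ℤ ℂ) (x : ℂ), IsLat Λ ∧ g2 Λ = -4 * A ∧ g3 Λ = -4 * B ∧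
  x.im ≠ 0 ∧ ∀ z ∈ Λ, x * z ∈ Λ

/-- the passage to the maximal order -/
def EXC : Prop := ∀ A B : ℤ, 4 * A ^ 3 + 27 * B ^ 2 ≠ 0 → IsCM A B → ∃ (A' B' : ℤ) (_ : Cd A' B'),
  {p : ℕ | p.Prime ∧ al A B p ≠ al A' B' p}.Finite

/-- `D'` is the twist of `D` by its field -/
structure Tw {A B A' B' : ℤ} (D : Cd A B) (D' : Cd A' B') (e : D.O ≃+* D'.O)
    (i : Pt A B ≃+ Pt A' B') : Prop where
  j : ∀ x, D'.j (e x) = D.j x
  st : ∀ x, e (star x) = star (e x)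
  G : D'.G = D.G
  c : D'.c = D.c
  η : D'.η = -e D.η
  act : ∀ x T, D'.act (e x) (i T) = i (D.act x T)
  tp : ∀ m ≠ 0, D'.tp (e m) = i (D.tp m)
  g1 : ∀ g ∈ D.G, ∀ T, ga g (i T) = i (ga g T)
  g2 : ∀ g ∉ D.G, ∀ T, ga g (i T) = -i (ga g T)
  th : ∀ α, IsCoprime α 6 → ∀ Q, D.act α Q ≠ 0 → D'.th (e α) (i Q) = D.th α Q
  ae : {p : ℕ | p.Prime ∧ al A B p ≠ al A' B' p}.Finite

/-- the twist exists -/
def TWC : Prop := ∀ A B (D : Cd A B), ∃ A' B' D' e i, Tw (A' := A') (B' := B') D D' e i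

def CF : Prop := ∀ A B (D : Cd A B), D.Cf

def CG : Prop := ∀ A B (D : Cd A B), D.Cf → ∃ N, D.Cg N

def EP : Prop := ∀ A B (D : Cd A B) N, D.Cf → D.Cg N → ∃ ε, D.Ep N ε

def EU : Prop := ∀ A B (D : Cd A B), D.Cf → D.Eu

def ES : Prop := ∀ A B (D : Cd A B) (p : ℕ), p.Prime → p ≠ 2 → D.Cf → D.Eu → D.Es p

end Vale.Agent.P014X
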