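import Mathlib

/-! # P014X: complex multiplication (the word of the statement) -/

namespace Vale.Agent.P014X

/-- `E` has complex multiplication: the period lattice of the invariant differential of `E` (the
lattice with `12 g₂ = c₄`, `216 g₃ = c₆`) is stable under multiplication by a non real number. -/
def HasCM (E : WeierstrassCurve ℚ) : Prop :=
  ∃ (L : PeriodPair) (α : ℂ), 12 * L.g₂ = E.c₄ ∧ 216 * L.g₃ = E.c₆ ∧ α.im ≠ 0 ∧
    ∀ z ∈ L.lattice, α * z ∈ L.lattice

end Vale.Agent.P014X
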