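import Vale.Agent.P014X.Top
import Vale.Agent.P014T.Lk.Ell

/-! # P014X: all primes together (helper30) -/

set_option autoImplicit false
set_option linter.all false

namespace Vale.Agent.P014X.Top

open Vale.Agent.P014 Vale.Agent.P014T Vale.Agent.P014U Vale.Agent.P014U.Top

/-- the formula up to an odd natural number -/
def BSDO : Prop := ∀ (E : WeierstrassCurve ℚ) [E.IsElliptic], GlobalMinimal E →
  (∃! L, IsHasseWeil E L) ∧
  ∀ L, IsHasseWeil E L → ∀ r : ℕ, r ≤ 1 → analyticOrderAt L 1 = r →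
    Module.finrank ℤ E.toAffine.Point = r ∧ Finite (Sha E) ∧
    (∃ P : Fin r → E.toAffine.Point, IsBasisModTorsion E P) ∧
    ∀ P : Fin r → E.toAffine.Point, IsBasisModTorsion E P → ∃ n : ℕ, Odd n ∧
      iteratedDeriv r L 1 / (r.factorial : ℂ) = (n : ℂ) * ((realPeriod E * regulator E P *
        (Nat.card (Sha E) : ℝ) * (tamagawaProduct E : ℝ) / (torsionOrder E : ℝ) ^ 2 : ℝ) : ℂ) ∧
      ((∃ k : ℕ, n * Nat.card (Sha E) = 2 ^ k) → n = 1)

/-- the formula for curves with complex multiplication -/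
def BSDC : Prop := ∀ (E : WeierstrassCurve ℚ) [E.IsElliptic], GlobalMinimal E → HasCM E →
  (∃! L, IsHasseWeil E L) ∧
  ∀ L, IsHasseWeil E L → ∀ r : ℕ, r ≤ 1 → analyticOrderAt L 1 = r →
    Module.finrank ℤ E.toAffine.Point = r ∧ Finite (Sha E) ∧
    (∃ P : Fin r → E.toAffine.Point, IsBasisModTorsion E P) ∧
    ∀ P : Fin r → E.toAffine.Point, IsBasisModTorsion E P →
      iteratedDeriv r L 1 / (r.factorial : ℂ) = ((realPeriod E * regulator E P *
        (Nat.card (Sha E) : ℝ) * (tamagawaProduct E : ℝ) / (torsionOrder E : ℝ) ^ 2 : ℝ) : ℂ)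

/-- the merged text: the odd number is one for curves with complex multiplication -/
def BSDM : Prop := ∀ (E : WeierstrassCurve ℚ) [E.IsElliptic], GlobalMinimal E →
  (∃! L, IsHasseWeil E L) ∧
  ∀ L, IsHasseWeil E L → ∀ r : ℕ, r ≤ 1 → analyticOrderAt L 1 = r →
    Module.finrank ℤ E.toAffine.Point = r ∧ Finite (Sha E) ∧
    (∃ P : Fin r → E.toAffine.Point, IsBasisModTorsion E P) ∧
    ∀ P : Fin r → E.toAffine.Point, IsBasisModTorsion E P → ∃ n : ℕ, Odd n ∧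
      iteratedDeriv r L 1 / (r.factorial : ℂ) = (n : ℂ) * ((realPeriod E * regulator E P *
        (Nat.card (Sha E) : ℝ) * (tamagawaProduct E : ℝ) / (torsionOrder E : ℝ) ^ 2 : ℝ) : ℂ) ∧
      (HasCM E ∨ (∃ k : ℕ, n * Nat.card (Sha E) = 2 ^ k) → n = 1)

theorem bsdm (bs : BSDO) (kat : ∀ [Pp], KATX) (kti : ∀ [Pp], KTI) (b0 : ∀ [Pp], BV 0)
    (b1 : ∀ [Pp], BV 1) (inv : ∀ [Pp], INV) : BSDM := fun E _ hm => by
  refine ⟨(bs E hm).1, fun L h r r1 o => ?_⟩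
  obtain ⟨k1, k2, k3, k4⟩ := (bs E hm).2 L h r r1 o
  refine ⟨k1, k2, k3, fun P b => ?_⟩
  obtain ⟨n, d, e, w⟩ := k4 P b
  refine ⟨n, d, e, fun c => c.elim (fun cm => ?_) w⟩
  obtain ⟨A, B, u, v, s, t, m⟩ := Sm.ex_md E
  refine Nat.eq_one_iff_not_exists_prime_dvd.2 fun p a c => ?_
  let _ : Pp := ⟨p, a, fun z => d.not_two_dvd_nat (z ▸ c)⟩
  exact ndv kti b0 b1 inv hm (Lk.hw h) m r1 o (kat A B m.hD (cw_of cm m)) b k2 e c

theorem BSDM.cm (bs : BSDM) : BSDC := fun E _ hm cm => by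
  refine ⟨(bs E hm).1, fun L h r r1 o => ?_⟩
  obtain ⟨k1, k2, k3, k4⟩ := (bs E hm).2 L h r r1 o
  refine ⟨k1, k2, k3, fun P b => ?_⟩
  obtain ⟨n, -, e, w⟩ := k4 P b
  rwa [w (.inl cm), Nat.cast_one, one_mul] at e

end Vale.Agent.P014X.Top
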