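import Vale.Agent.P014X.Cw
import Vale.Agent.P014U.Fin
import Vale.Agent.P027H.Wp

/-! # P014X: the glue of the top level (helper30) -/

set_option autoImplicit false
set_option linter.all false

open scoped Classical

noncomputable section

namespace Vale.Agent.P014X.Top

open Vale.Agent.P014 Vale.Agent.P014U Vale.Agent.P014U.Top
open Vale.Agent.P014T (IsBasisModTorsion regulator)
open P004N (IsEll cE)
open P014T.Lc (Wq tm np)
open P014T.Sm (Md)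
open P027H (IsLat g2 g3)

/-- complex multiplication for a short equation -/
def Cw (A B : ℤ) : Prop := ∃ (Λ : Submodule ℤ ℂ) (α : ℂ), IsLat Λ ∧ g2 Λ = -4 * A ∧ g3 Λ = -4 * B ∧
  α.im ≠ 0 ∧ ∀ z ∈ Λ, α * z ∈ Λ

theorem cw_of {E : WeierstrassCurve ℚ} {A B : ℤ} {u r s t : ℚ} (h : HasCM E) (m : Md E A B u r s t) :
    Cw A B := by
  obtain ⟨L, α, h2, h3, a, k⟩ := h
  obtain ⟨-, -, -, e2, e3⟩ := P014T.Sm.Md.eq m
  have u0 : (u : ℂ)⁻¹ ≠ 0 := inv_ne_zero (by exact_mod_cast m.ne)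
  have H := P027H.hom_scl u0 L.lattice
  have e2 : (A : ℂ) = -(u ^ 4 * E.c₄) / 48 := by exact_mod_cast congrArg (Rat.cast (K := ℂ)) e2
  have e3 : (B : ℂ) = -(u ^ 6 * E.c₆) / 864 := by exact_mod_cast congrArg (Rat.cast (K := ℂ)) e3
  refine ⟨_, α, H.isLat ⟨L, rfl⟩, ?_, ?_, a, fun z b => ?_⟩
  · rw [H.g2, P027H.g2_lat, inv_inv, e2, ← h2]
    ring
  · rw [H.g3, P027H.g3_lat, inv_inv, e3, ← h3]
    ring
  · rw [P027H.mem_scl] at b ⊢
    rw [mul_left_comm]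
    exact k _ b

section

variable [Pp]

/-- zeta elements whose quotient in the main conjecture is not divisible by the prime -/
def Un (A B : ℤ) : Prop := ∃ (A' B' : ℤ) (h' : El A' B'), Ae A' B' A B ∧
  ∀ S₀, Pm S₀ → ∃ S α, S₀ ⊆ S ∧ Pm S ∧ Kt h' S α ∧ 1 ≤ ‖α‖

/-- **the target of the block at the prime** -/
def KATX : Prop := ∀ A B : ℤ, El A B → Cw A B → Un A B

variable {W : WeierstrassCurve ℤ} {A B : ℤ} {u r s t : ℚ}

/-- the opposite inequality -/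
theorem low (kti : KTI) (b0 : BV 0) (b1 : BV 1) (inv : INV) (hΔ : W.Δ ≠ 0)
    (hm : GlobalMinimal (Wq W)) {L : ℂ → ℂ} (hE : IsEll (Wq W) L) (h : Md (Wq W) A B u r s t)
    {k : ℕ} (hk : k ≤ 1) (o : analyticOrderAt L 1 = k) (U : Un A B)
    {P : Fin k → (Wq W).toAffine.Point} (hP : IsBasisModTorsion (Wq W) P) :
    ∃ ρ : ℚ, padicValRat pp ρ ≤ 0 ∧
      iteratedDeriv k L 1 / (k.factorial : ℂ) = (ρ : ℂ) * ((realPeriod (Wq W) * regulator (Wq W) P *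
        (Nat.card (shaPrimary (Wq W) pp) : ℝ) * (tamagawaProduct (Wq W) : ℝ) /
          (torsionOrder (Wq W) : ℝ) ^ 2 : ℝ) : ℂ) := by
  have := P014T.Top.Sa.ell hΔ
  obtain ⟨A', B', h', f, U⟩ := U
  obtain ⟨α, α0, le, S', b', d⟩ := core kti b0 b1 h.hD h' f hk
    ⟨L, (P014T.Top.Sa.isEll h).1 hE, o⟩ U
  have b := ex_bd hΔ
  generalize (2 * pp * W.Δ).natAbs.primeFactors = S at b
  obtain ⟨M, Q, ρ, hM, o, hQ, fi, r0, v, e⟩ := (inv W A B u r s t S S' k _ hΔ h b b').2 d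
  refine ⟨ρ, ?_, ?_⟩
  · rw [Padic.norm_eq_zpow_neg_valuation α0, one_le_zpow_iff_right₀ (by exact_mod_cast one_lt)] at le
    omega
  obtain ⟨-, o', e'⟩ := P014T.Lk.dep (a := fun n => (Wq W).LFunction n)
    ⟨Finset.prod_ne_zero_iff.2 fun p a => (b.1 p a).ne_zero, fun _ _ => rfl⟩ hE hM
  have pos : (∏ p ∈ S, (np W p / p : ℝ)) ≠ 0 := Finset.prod_ne_zero_iff.2 fun p a =>
    div_ne_zero (Nat.cast_ne_zero.2 (P014T.Lc.np_pos W (b.1 p a)).ne')
      (Nat.cast_ne_zero.2 (b.1 p a).ne_zero)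
  rw [e' k (o' ▸ o.ge), Nat.primeFactors_prod b.1,
    Finset.prod_congr rfl fun p a => P014T.Lk.P1_np W hΔ hm (b.1 p a)] at e
  simp only [mul_div_assoc, Finset.prod_mul_distrib] at e
  rw [P014T.Top.Sa.reg hk hP hQ, P014T.Lc.tam_prod W S fun p a c => b.2 p a (c.mul_left _)]
  refine mul_left_cancel₀ (Complex.ofReal_ne_zero.2 pos) (e.trans ?_)
  push_cast
  ring

/-- the prime does not divide the quotient -/
theorem ndv (kti : KTI) (b0 : BV 0) (b1 : BV 1) (inv : INV) {E : WeierstrassCurve ℚ} [E.IsElliptic]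
    (hm : GlobalMinimal E) {L : ℂ → ℂ} (hE : IsEll E L) (h : Md E A B u r s t) {k n : ℕ}
    (hk : k ≤ 1) (o : analyticOrderAt L 1 = k) (U : Un A B) {P : Fin k → E.toAffine.Point}
    (hP : IsBasisModTorsion E P) (f : Finite (Sha E))
    (e : iteratedDeriv k L 1 / (k.factorial : ℂ) = (n : ℂ) * ((realPeriod E * regulator E P *
      (Nat.card (Sha E) : ℝ) * (tamagawaProduct E : ℝ) / (torsionOrder E : ℝ) ^ 2 : ℝ) : ℂ)) :
    ¬ pp ∣ n := by
  obtain ⟨W, rfl⟩ := P014T.Lc.ex_int hm.1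
  have hΔ : W.Δ ≠ 0 := fun e => (Wq W).isUnit_Δ.ne_zero (by rw [WeierstrassCurve.map_Δ, e, map_zero])
  have hX := ((analyticOrderAt_eq_nat_iff_iteratedDeriv_eq_zero (hE.1 1 (by simp))).1 o).2
  obtain ⟨ρ, v, e'⟩ := low kti b0 b1 inv hΔ hm hE h hk o U hP
  obtain ⟨m, d, c⟩ : ∃ m : ℕ, ¬ pp ∣ m ∧ Nat.card (Sha (Wq W)) = m * Nat.card (shaPrimary (Wq W) pp) :=
    P014T.Top.card_pr (Sha (Wq W)) pp
  have s0 : m * Nat.card (shaPrimary (Wq W) pp) ≠ 0 := c ▸ Nat.card_pos.ne'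
  have n0 : n ≠ 0 := by
    rintro rfl
    exact div_ne_zero hX (Nat.cast_ne_zero.2 k.factorial_ne_zero) (by simpa using e)
  have q := Tq.quo (ρ := n) hX (by rwa [Rat.cast_natCast]) e'
  rw [c, Nat.cast_mul, ← mul_assoc] at q
  rw [← mul_right_cancel₀ (Nat.cast_ne_zero.2 (right_ne_zero_of_mul s0)) q, ← Nat.cast_mul,
    padicValRat.of_nat] at v
  intro z
  have := one_le_padicValNat_of_dvd (mul_ne_zero n0 (left_ne_zero_of_mul s0)) (z.mul_right m)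
  omega

end

end Vale.Agent.P014X.Top
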