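import Vale.Agent.P014X.St2
import Vale.Agent.P014X.Top

/-! # P014X: from the rows to the target `KATX` (helper30) -/

set_option autoImplicit false
set_option linter.all false

open scoped Classical

noncomputable section

namespace Vale.Agent.P014X.Top

open Vale.Agent.P014U Vale.Agent.P014U.Top
open P004M.TE (al)

variable [Pp]

/-- a series with a unit value is a unit -/
theorem unit_of {k : ℕ} {C : Cr k} {e : C.R →+* C.O} (v : C.Ev e) {α : C.R} (h : IsUnit (e α)) :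
    IsUnit α := by
  rw [PowerSeries.isUnit_iff_constantCoeff]
  rw [α.eq_shift_mul_X_add_const, map_add, map_mul, v.c] at h
  exact (IsLocalRing.isUnit_or_isUnit_of_isUnit_add h).resolve_left
    fun z => v.X (isUnit_of_mul_isUnit_right z)

/-- the tame level serves the twist, when it contains the primes of its conductor -/
theorem fm' {A B A' B' : ℤ} {D : Cd A B} {D' : Cd A' B'} {N N' M M₀ : ℕ} (f : D.Fm N M)
    (k : ∃ n, N' * (D'.b ^ 2 + 4 * D'.a).natAbs * M₀ ∣ M * pp ^ n) : D'.Fm N' M := by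
  obtain ⟨n, k⟩ := k
  refine ⟨f.ne, f.cop, ⟨n, ((dvd_mul_right _ _).mul_right _).trans k⟩, fun l a b => ?_⟩
  have := (Int.natCast_dvd.1 b).trans (((dvd_mul_left _ _).mul_right _).trans k)
  rcases (Nat.Prime.dvd_mul a).1 this with c | c
  · exact Finset.mem_insert_of_mem (Nat.mem_primeFactors.2 ⟨a, c, f.ne⟩)
  · rw [(Nat.prime_dvd_prime_iff_eq a Fact.out).1 (a.dvd_of_dvd_pow c)]
    exact Finset.mem_insert_self _ _

theorem katx (exc : EXC) (twc : TWC) (cf : CF) (cg : CG) (eu : EU) (es : ES) (raw : RAW) (gax : GAX)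
    (fmo : FMO) (anc : ANC) (psi : PSI) (fam : FAM) (ktx : KTX) : KATX := fun A₀ B₀ h₀ cm => by
  obtain ⟨A, B, D, f⟩ := exc A₀ B₀ h₀ cm
  obtain ⟨A', B', D', e, i, T⟩ := twc A B D
  have c := cf _ _ D
  have c' := cf _ _ D'
  obtain ⟨N, g⟩ := cg _ _ D c
  obtain ⟨N', g'⟩ := cg _ _ D' c'
  have u := eu _ _ D c
  have u' := eu _ _ D' c'
  have s := es _ _ D pp Fact.out pp_ne_two c u
  have s' := es _ _ D' pp Fact.out pp_ne_two c' u'
  obtain ⟨χ, hχ⟩ := psi _ _ D c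
  have key : ∀ S₀, Pm S₀ → ∃ S, S₀ ⊆ S ∧ Pm S ∧
      ((∃ β, Kt D.el S β ∧ 1 ≤ ‖β‖) ∨ ∃ β, Kt D'.el S β ∧ 1 ≤ ‖β‖) := fun S₀ p₀ => by
    have n0 : N' * (D'.b ^ 2 + 4 * D'.a).natAbs * ∏ l ∈ S₀, l ≠ 0 :=
      mul_ne_zero (mul_ne_zero g'.ne (Int.natAbs_ne_zero.2 D'.neg.ne))
        (Finset.prod_ne_zero_iff.2 fun l a => (p₀ l a).ne_zero)
    obtain ⟨M, k, C, a, b, t, e₂, x, F, e₀, e₁, fm, dv, ax, iu, em, v₀, v₁, hF, f₀, m₀, q₀⟩ :=
      fam _ _ D N χ c g hχ _ n0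
    have M0 : 6 * M * pp ≠ 0 := mul_ne_zero (mul_ne_zero (by norm_num) fm.ne) pp_ne
    obtain ⟨γ, hγ⟩ := gax _ _ D c M (6 * M * pp + 1) fm.ne (by omega) (by simp)
    have r := raw _ _ D c s
    choose! α hα using fun f (m : f ∈ x.J) =>
      fmo _ _ D N M c g r fm k C a b t (F f) _ γ iu (hF f m).1 hγ
    have un := anc _ _ D N M c u s fm k C a b x _ γ (fun f => e₁ (α f)) iu hγ
      (fun f m => (hF f m).2 ▸ hα f m e₁ v₁) f₀ m₀
    have un₀ : IsUnit (e₀ (α f₀)) := (unit_of v₁ un).map _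
    refine ⟨Sb M, fun l a => ?_, fun l a => ?_, ktx _ _ _ _ D D' e i N N' M χ _ γ T c c' g g' u u' s s'
      fm (fm' fm dv) ax hχ hγ k C a b e₂ _ iu em un₀ (q₀ ▸ hα f₀ m₀ e₀ v₀)⟩
    · obtain ⟨n, dv⟩ := dv
      have := (Finset.dvd_prod_of_mem (fun l => l) a).trans ((dvd_mul_left _ _).trans dv)
      rcases (Nat.Prime.dvd_mul (p₀ l a)).1 this with c | c
      · exact Finset.mem_insert_of_mem (Nat.mem_primeFactors.2 ⟨p₀ l a, c, fm.ne⟩)
      · rw [(Nat.prime_dvd_prime_iff_eq (p₀ l a) Fact.out).1 ((p₀ l a).dvd_of_dvd_pow c)]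
        exact Finset.mem_insert_self _ _
    · rcases Finset.mem_insert.1 a with rfl | a
      · exact Fact.out
      · exact Nat.prime_of_mem_primeFactors a
  have f1 : Ae A B A₀ B₀ := f.subset fun p a => ⟨a.1, a.2.symm⟩
  have f2 : Ae A' B' A₀ B₀ := (f.union T.ae).subset fun p a => by
    by_contra z
    rw [Set.mem_union, not_or] at z
    exact a.2 ((by_contra fun y => z.2 ⟨a.1, fun w => y w.symm⟩ : al A' B' p = al A B p).trans
      (by_contra fun y => z.1 ⟨a.1, fun w => y w.symm⟩))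
  by_contra z
  obtain ⟨S₁, z₁⟩ := not_forall.1 fun y => z ⟨A, B, D.el, f1, y⟩
  obtain ⟨S₂, z₂⟩ := not_forall.1 fun y => z ⟨A', B', D'.el, f2, y⟩
  rw [Classical.not_imp] at z₁ z₂
  obtain ⟨S, a, b, ⟨β, y⟩ | ⟨β, y⟩⟩ := key (S₁ ∪ S₂)
    fun l a => (Finset.mem_union.1 a).elim (z₁.1 l) (z₂.1 l)
  · exact z₁.2 ⟨S, β, Finset.subset_union_left.trans a, b, y⟩
  · exact z₂.2 ⟨S, β, Finset.subset_union_right.trans a, b, y⟩

end Vale.Agent.P014X.Top
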