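import Vale.Agent.P014X.St0
import Vale.Agent.P014U.Pp.St
import Vale.Agent.P014U.Sy.Ex

/-! # P014X: the Euler system of rank one and its Kolyvagin classes (words and rows) -/

set_option autoImplicit false
set_option linter.all false

open NumberField
open scoped Classical

noncomputable section

namespace Vale.Agent.P014X

open Vale.Agent.P022 (Qb GQ)
open Vale.Agent.P027M.S (Inert)
open Vale.Agent.P022E.GW (Ov Fb)
open Vale.Agent.P014U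
open Vale.Agent.P014U.Dr (Zn)
open Vale.Agent.P014U.Pp (ec)
open Vale.Agent.P014U.X4F.Rc (hn)

variable [Pp]

/-- a root -/
def rt (N : ℕ) (u : Qb) : Qb := Classical.epsilon fun r => r ^ pp ^ N = u

/-- the Kummer cocycle -/
def kum (N : ℕ) (u : Qb) (g : GQ) : Zn N :=
  Classical.epsilon fun k : Zn N => g (rt N u) = Sy.ex (hn N) ^ k.val * rt N u

namespace Cd

variable {A B : ℤ} (D : Cd A B) {R : Type} [CommRing R] {N : ℕ}

/-- the conductor divides `m` -/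
def Tr (m : D.O) (χ : D.G →* R) : Prop := ∀ g : D.G, g.1 ∈ D.Hm m → χ g = 1

/-- the character times the cyclotomic character -/
def ak (ι : Zn N →+* R) (χ : D.G →* R) : D.G →* R :=
  ι.toMonoidHom.comp ((ec N).comp D.G.subtype) * χ

/-- conjugation by `c` -/
def cg (g : D.G) : D.G := if h : D.c * g * D.c ∈ D.G then ⟨_, h⟩ else 1

/-- locally constant cocycles -/
structure Co (a : D.G →* R) (y : D.G → R) : Prop where
  coc : ∀ g h, y (g * h) = y g + a g * y h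
  lc : ∃ W : Subgroup GQ, IsOpen (W : Set GQ) ∧ ∀ w : D.G, w.1 ∈ W → y w = 0

/-- cohomologous -/
def Ch (a : D.G →* R) (y y' : D.G → R) : Prop := ∃ w, ∀ g, y g - y' g = (a g - 1) * w

/-- the corestriction -/
def cor (H : Subgroup GQ) (a : D.G →* R) (y : D.G → R) (g : D.G) : R :=
  ∑ᶠ x : D.G ⧸ H.subgroupOf D.G, a x.out * y (x.out⁻¹ * g * (g⁻¹ • x).out)

/-- **the class of the unit** -/
def zc (α m : D.O) (ι : Zn N →+* R) (χ : D.G →* R) : D.G → R :=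
  D.cor (D.Hm m) (D.ak ι χ) fun g => ι (kum N (D.un α m) g)

/-- **the relations between the classes** -/
structure Rw : Prop where
  co : ∀ (N : ℕ) (α m : D.O) (R : Type) [CommRing R] (ι : Zn N →+* R) (χ : D.G →* R),
    D.Ad pp α m → D.Tr m χ → D.Co (D.ak ι χ) (D.zc α m ι χ)
  map : ∀ (N : ℕ) (α m : D.O) (R R' : Type) [CommRing R] [CommRing R'] (f : R →+* R')
    (ι : Zn N →+* R) (χ : D.G →* R) g, m ≠ 0 →
    f (D.zc α m ι χ g) = D.zc α m (f.comp ι) (f.toMonoidHom.comp χ) g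
  dv : ∀ (N : ℕ) (α m m' : D.O) (R : Type) [CommRing R] (ι : Zn N →+* R) (χ : D.G →* R),
    D.Ad pp α m → D.Ad pp α m' → m ∣ m' → (∀ π : D.O, Prime π → π ∣ m' → π ∣ m) → D.Tr m χ →
    D.Ch (D.ak ι χ) (D.zc α m' ι χ) (D.zc α m ι χ)
  odd : ∀ (N : ℕ) (α m π : D.O) P φ (h : D.Fr π P 1 φ) (R : Type) [CommRing R] (ι : Zn N →+* R)
    (χ : D.G →* R), D.Ad pp α (m * π) → D.Ad pp α m → ¬ π ∣ m → D.Tr m χ →
    D.Ch (D.ak ι χ) (D.zc α (m * π) ι χ) ((1 - χ ⟨φ, h.G⟩) • D.zc α m ι χ)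
  smo : ∀ (N : ℕ) (α α' m ζ ζ' : D.O) (g g' : D.G) (R : Type) [CommRing R] (ι : Zn N →+* R)
    (χ : D.G →* R), D.Ad pp α m → D.Ad pp α' m → IsUnit ζ → IsUnit ζ' → D.Ac m g (ζ * α) →
    D.Ac m g' (ζ' * α') → D.Tr m χ →
    D.Ch (D.ak ι χ) (((D.nm α' : R) - χ g'⁻¹) • D.zc α m ι χ) (((D.nm α : R) - χ g⁻¹) • D.zc α' m ι χ)
  cnj : ∀ (N : ℕ) (α m : D.O) (R : Type) [CommRing R] (ι : Zn N →+* R) (χ χ' : D.G →* R),
    D.Ad pp α m → D.Tr m χ → (∀ g, χ' g = χ (D.cg g)) →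
    D.Ch (D.ak ι χ') (fun g => D.zc α m ι χ (D.cg g)) (-D.zc (star α) (star m) ι χ')
  unr : ∀ (N : ℕ) (α m : D.O) (R : Type) [CommRing R] (ι : Zn N →+* R) (χ : D.G →* R) l P
    (i : D.G), D.Ad pp α m → D.Tr m χ → Ov l P → l ≠ pp → Inert P i.1 → i.1 ∈ D.Hm m →
    D.zc α m ι χ i = 0
  lev : ∀ (N n : ℕ) (le : n ≤ N) (α m : D.O) (R : Type) [CommRing R] (ι : Zn n →+* R)
    (χ : D.G →* R), D.Ad pp α m → D.Tr m χ → D.Ch (D.ak ι χ)
      (D.zc α m (ι.comp (ZMod.castHom (pow_dvd_pow pp le) (Zn n))) χ) (D.zc α m ι χ)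

/-- Kolyvagin primes -/
structure Kp (N : ℕ) (χ : D.G →* R) (m : D.O) where
  l : ℕ
  P : Ideal (𝓞 Qb)
  φ : D.G
  τ : D.G
  π : D.O
  ov : Ov l P
  fb : Fb l P φ.1
  gn : Gn l P τ.1
  fr : D.Fr π P 1 φ.1
  nm : π * star π = l
  bar : D.j (star π) ∉ P
  cop : IsCoprime (l : D.O) m
  md : l % pp ^ (N + 2) = 1
  one : χ φ = 1

variable {D}

/-- distinct primes -/
def Inj {χ : D.G →* R} {m : D.O} (n : Finset (D.Kp N χ m)) : Prop :=
  ∀ k ∈ n, ∀ k' ∈ n, k.l = k'.l → k = k'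

/-- **Kolyvagin classes** -/
structure Ks (ι : Zn N →+* R) {χ : D.G →* R} (m : D.O) {m' : D.O}
    (κ : Finset (D.Kp N χ m') → D.G → R) : Prop where
  co : ∀ n, Inj n → D.Co (D.ak ι χ) (κ n)
  unr : ∀ n, Inj n → ∀ l P (i : D.G), Ov l P → Inert P i.1 → D.j m ∉ P → (∀ k ∈ n, D.j k.π ∉ P) →
    κ n i = 0
  fs : ∀ n k, k ∉ n → Inj (insert k n) → κ (insert k n) k.τ = -κ n k.φ

end Cd

/-! ## rows -/

/-- the classes of the units -/
def RAW : Prop := ∀ A B (D : Cd A B), D.Cf → D.Es pp → D.Rw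

/-- the derivative classes -/
def KOL : Prop := ∀ A B (D : Cd A B), D.Cf → D.Rw → ∀ (N : ℕ) (α m : D.O) (R : Type) [CommRing R]
  (ι : Zn N →+* R) (χ : D.G →* R) (g₀ : D.G), D.Ad pp α m → D.Tr m χ →
  ∃ κ : Finset (D.Kp N χ (α * m)) → D.G → R, Cd.Ks ι m κ ∧
    D.Ch (D.ak ι χ) (κ ∅) ((D.ak ι χ g₀ - 1) • D.zc α m ι χ)

/-- Kolyvagin primes exist -/
def KPX : Prop := ∀ A B (D : Cd A B), D.Cf → ∀ (N : ℕ) (m m₀ : D.O) (R : Type) [CommRing R]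
  (χ : D.G →* R) (h : D.G) (W : Subgroup GQ) (T : Finset ℕ), m ≠ 0 → m₀ ≠ 0 → D.Tr m₀ χ → χ h = 1 →
  h.1 ∈ Dr.Hm (pp ^ (N + 2)) → IsOpen (W : Set GQ) →
  ∃ k : D.Kp N χ m, k.l ∉ T ∧ h.1⁻¹ * k.φ.1 ∈ W

end Vale.Agent.P014X
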