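import Vale.Agent.P014X.St1
import Vale.Agent.P014X.Pp.St
import Vale.Agent.P014U.Ct.St

/-! # P014X: families of characters, the anchor, the descent (words and rows) -/

set_option autoImplicit false
set_option linter.all false

open NumberField Matrix Filter Submodule IsLocalRing
open scoped Classical

noncomputable section

namespace Vale.Agent.P014X

open Vale.Agent.P022 (Qb GQ)
open Vale.Agent.P027M.S (Inert)
open Vale.Agent.P022D.W (dec)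
open Vale.Agent.P022E.GW (Ov Fb)
open Vale.Agent.P014U
open Vale.Agent.P014U.Dr (Zn)
open Vale.Agent.P014U.Kq (M2)
open Vale.Agent.P014U.Pq (Zq)
open Vale.Agent.P014U.X4S.Aq (cz)
open Vale.Agent.P014U.X4S.Ga (K)
open Vale.Agent.P004F.Pat (U Ae lm)
open Vale.Agent.P014T.Pp.Lv (lv)
open Vale.Agent.P014T.Ct (Pr Cl db)
open Vale.Agent.P014T.Ba (st cl Kr)
open Vale.Agent.P014U.Top (Kt sg w0 cS)
open Vale.Agent.P014U.Bt (Gp)
open P004M.TE (Pt ga al)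
open PadicInt (toZModPow toZMod)

variable [Pp]

/-! ## coefficients -/

/-- the ring of the roots of unity of order `pp ^ (k + 1)` -/
structure Cr (k : ℕ) where
  O : Type
  [cO : CommRing O]
  [dO : IsDomain O]
  [vO : IsDiscreteValuationRing O]
  [aO : Algebra ℤ_[pp] O]
  pb : PowerBasis ℤ_[pp] O
  π : O →+* ZMod pp
  min : minpoly ℤ_[pp] pb.gen = Polynomial.cyclotomic (pp ^ (k + 1)) ℤ_[pp]
  irr : Irreducible (pb.gen - 1)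

attribute [instance] Cr.cO Cr.dO Cr.vO Cr.aO

namespace Cr

variable {k : ℕ} (C : Cr k)

/-- the power series -/
abbrev R : Type := PowerSeries C.O

/-- the levels -/
abbrev L (n : ℕ) : Type := C.O ⧸ Ideal.span {(pp : C.O) ^ n}

/-- the reduction -/
abbrev rd (n : ℕ) : C.O →+* C.L n := Ideal.Quotient.mk _

/-- the structure map -/
def io (n : ℕ) : Zn n →+* C.L n :=
  ZMod.castHom (ringChar.dvd (R := C.L n) (by
    rw [Nat.cast_pow, ← map_natCast (C.rd n), ← map_pow]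
    exact Ideal.Quotient.eq_zero_iff_mem.2 (Ideal.mem_span_singleton_self _))) (C.L n)

/-- a point of the open disc -/
structure Ev (e : C.R →+* C.O) : Prop where
  c : ∀ x, e (PowerSeries.C x) = x
  X : ¬ IsUnit (e PowerSeries.X)

end Cr

/-- the finite levels of a complete local ring -/
structure Tl (R : Type) [CommRing R] [IsLocalRing R] where
  L : ℕ → Type
  [cL : ∀ j, CommRing (L j)]
  [lL : ∀ j, IsLocalRing (L j)]
  [fL : ∀ j, Finite (L j)]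
  i : ∀ j, R →+* L j
  lim : (∀ j, L j) →+* R
  π : ∀ j, L j →+* ZMod pp
  N : ℕ → ℕ
  f : ∀ j, Zn (N j) →+* L j
  ae : Ae lim
  sur : ∀ j, Function.Surjective (i j)
  ker : ∀ j y, i j y = 0 ↔ y ∈ maximalIdeal R ^ (j + 1)
  id : ∀ y, lim (fun j => i j y) = y
  apx : ∀ (y : ℕ → R) k, ∀ᶠ j in U, i k (y j) = i k (lim fun j => i j (y j))

attribute [instance] Tl.cL Tl.lL Tl.fL

/-! ## induced representations -/

section

variable {a b : ℤ} {R R' : Type} [CommRing R] [CommRing R']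

/-- the matrix of the multiplication -/
def mm (x : Qa a b R) : M2 R := !![x.re, a * x.im; x.im, x.re + b * x.im]

/-- the matrix of the conjugation -/
def cm (b : ℤ) (R : Type) [CommRing R] : M2 R := !![1, b; 0, -1]

/-- the coordinates -/
def vc (x : Qa a b R) : Fin 2 → R := ![x.re, x.im]

/-- change of coefficients in a character -/
abbrev qc {G : Type} [Monoid G] (f : R →+* R') (χ : G →* Qa a b R) : G →* Qa a b R' :=
  (qm a b f).toMonoidHom.comp χ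

/-- the value of the smoothing factor -/
def sf {G : Type} [Group G] (s : ℕ) (χ : G →* Qa a b R) (g : G) : R := ((s : Qa a b R) ^ 2 - χ g⁻¹).re

/-- the order of the module generated by the coboundary and `x` -/
def sz (ρ : GQ → M2 R) (x : GQ → Fin 2 → R) : ℕ := Nat.card (span R {db ρ ![1, 0], x})

end

/-- the set of bad primes -/
abbrev Sb (M : ℕ) : Finset ℕ := insert pp M.primeFactors

namespace Cd

variable {A B : ℤ} (D : Cd A B) {a b : ℤ} {R : Type} [CommRing R] {N k : ℕ}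

/-- the conductors -/
abbrev mp (M n : ℕ) : D.O := ((M * pp ^ n : ℕ) : D.O)

/-- `ρ` is induced from `Φ` -/
structure Id (Φ : D.G →* Qa a b R) (ρ : GQ →* M2 R) : Prop where
  G : ∀ g : D.G, ρ g = mm (Φ g)
  c : ρ D.c = cm b R

/-- the extension which vanishes at `c` -/
def xt {M : Type} [Zero M] (y : D.G → M) (g : GQ) : M :=
  if h : g ∈ D.G then y ⟨g, h⟩ else if h' : g * D.c ∈ D.G then y ⟨_, h'⟩ else 0

/-- the trace -/
def tc (y : D.G → Qa a b R) (g : D.G) : Qa a b R := y g + star (y (D.cg g))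

/-- the action which belongs to `χ` -/
abbrev aq (ι : Zn N →+* R) (χ : D.G →* Qa a b R) : D.G →* Qa a b R :=
  D.ak ((algebraMap R (Qa a b R)).comp ι) χ

/-- **the class over the rationals** -/
def xz (α m : D.O) (ι : Zn N →+* R) (χ : D.G →* Qa a b R) : GQ → Fin 2 → R := D.xt fun g =>
  vc (D.tc (fun g => dl a b R * D.zc α m ((algebraMap R (Qa a b R)).comp ι) χ g) g)

/-- compatible with the conjugation -/
def Cj (χ : D.G →* Qa a b R) : Prop := ∀ g, χ (D.cg g) = star (χ g)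

/-- the tame level -/
structure Fm (N M : ℕ) : Prop where
  ne : M ≠ 0
  cop : ¬ pp ∣ M
  dv : ∃ n, N ∣ M * pp ^ n
  disc : ∀ l : ℕ, l.Prime → (l : ℤ) ∣ D.b ^ 2 + 4 * D.a → l ∈ Sb M

/-- the smoothing number `s` and its Artin symbol `g` -/
structure Ga (M s : ℕ) (g : D.G) : Prop where
  lt : 1 < s
  cop : s.Coprime (6 * M * pp)
  ac : ∀ n, ∃ ζ, IsUnit ζ ∧ D.Ac (D.mp M n) g (ζ * s)

/-- **the numbers of the main conjecture** at the character `χ` -/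
def Mo (C : Cr k) (M s : ℕ) (χ : D.G →* Qa a b C.O) (β : C.O) : Prop :=
  ∀ (n n' : ℕ) (ρ : GQ →* M2 (C.L n)) (e : ℕ), 2 ≤ n' → D.Tr (D.mp M n') (qc (C.rd n) χ) →
    D.Id (D.aq (C.io n) (qc (C.rd n) χ)) ρ → e < Nat.card (C.L n) →
    Nat.card (C.L n) ^ 2 ≤ e * sz ρ (D.xz s (D.mp M n') (C.io n) (qc (C.rd n) χ)) →
    β ≠ 0 ∧ sz ρ (D.xz s (D.mp M n') (C.io n) (qc (C.rd n) χ)) *
      Nat.card (Zq (C.L n) (Sb M) ρ D.c) * Nat.card (C.O ⧸ Ideal.span {β}) = Nat.card (C.L n) ^ 4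

/-- residually trivial -/
def Rs {C : Cr k} (χ : D.G →* Qa a b C.R) (g : D.G) : Prop :=
  ¬ IsUnit (χ g - 1).re ∧ ¬ IsUnit (χ g).im ∧ toZMod (cz g : ℤ_[pp]) = 1

/-- the norms of `χ g - 1` and of `Φ g - 1` -/
def nn {C : Cr k} (χ : D.G →* Qa a b C.R) (g : D.G) : C.R :=
  (χ g - 1).norm * (algebraMap ℤ_[pp] C.R (cz g : ℤ_[pp]) • χ g - 1).norm

/-- **good families** -/
structure Gf {C : Cr k} (t : Tl C.R) (M : ℕ) (χ : D.G →* Qa a b C.R) : Prop where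
  cj : D.Cj χ
  tr : ∀ j, ∃ n, D.Tr (D.mp M n) (qc (t.i j) χ)
  loc : ∀ l ∈ M.primeFactors, (∃ P, ∃ i : D.G, Ov l P ∧ Inert P i.1 ∧ IsUnit (χ i - 1)) ∨
    (∀ P i, Ov l P → Inert P i → ∃ h : i ∈ D.G, χ ⟨i, h⟩ = 1) ∨
    (∀ P i, Ov l P → Inert P i → ∃ h : i ∈ D.G, χ ⟨i, h⟩ ^ pp = 1) ∧
      ∀ P, Ov l P → ∃ i : D.G, Inert P i.1 ∧ (χ i - 1).norm ∣ pp
  mu : ∀ g : D.G, ¬ IsOfFinOrder (cz g) → ¬ PowerSeries.C (C.pb.gen - 1) ∣ D.nn χ g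
  bad : ∃ P, Ov pp P ∧ ∀ I : Ideal C.R, I.IsPrime → I ≠ maximalIdeal C.R →
    ∃ g : D.G, g.1 ∈ dec P ∧ D.Rs χ g ∧ D.nn χ g ∉ I
  aux : ∃ l ∈ M.primeFactors, ∃ Q, Ov l Q ∧ ∀ g ∈ dec Q, ∃ h : g ∈ D.G, D.Rs χ ⟨g, h⟩

/-- presentations at the finite levels, with the columns of the coboundary and of the class -/
def Pz {C : Cr k} (t : Tl C.R) (M s : ℕ) (χ : D.G →* Qa a b C.R) {r : ℕ}
    (Q : ∀ j, Matrix (Fin r) (Fin (r + 2)) (t.L j)) (v w : ∀ j, Fin (r + 2) → t.L j) : Prop :=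
  ∀ᶠ j in U, ∃ (n : ℕ) (ρ : GQ →* M2 (t.L j)) (u : GQ → Matrix (Fin 2) (Fin (r + 2)) (t.L j)),
    2 ≤ n ∧ D.Tr (D.mp M n) (qc (t.i j) χ) ∧ D.Id (D.aq (t.f j) (qc (t.i j) χ)) ρ ∧
    Pr ρ (Sb M) D.c (Q j) u ∧ Cl (Q j) u (v j) (db ρ ![1, 0]) ∧
    Cl (Q j) u (w j) (D.xz s (D.mp M n) (t.f j) (qc (t.i j) χ))

/-- **the anchor**: the characters `f * ξ` of finite order, `f ∈ J` -/
structure An (C : Cr k) (a b : ℤ) (M : ℕ) where
  I : Finset (D.G →* Qa a b C.O)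
  J : Finset (D.G →* Qa a b C.O)
  ξ : D.G →* Qa a b C.O
  ξ₁ : D.G →* C.O
  lam : Qa a b C.O
  n₀ : ℕ
  one : 1 ∈ I
  mul : ∀ f ∈ I, ∀ f' ∈ I, f * f' ∈ I
  crd : I.card = (⨅ f ∈ I, f.ker).index
  cop : ¬ pp ∣ I.card
  ort : ∀ g, (∃ f ∈ I, f g ≠ 1) → ∑ f ∈ I, f g = 0
  cj : ∀ f ∈ I, D.Cj f
  cx : D.Cj ξ
  lx : ∀ g, lam * ξ g = ξ₁ g • lam
  lu : IsUnit (lam.im * (2 * lam.re + b * lam.im))
  rg : ∀ g, ∃ n : ℕ, ξ₁ g = C.pb.gen ^ n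
  on : ∃ g, ξ₁ g = C.pb.gen
  tr : ∀ f ∈ I, D.Tr (D.mp M n₀) f
  tx : D.Tr (D.mp M n₀) ξ
  ns : ∀ l ∈ Sb M, ∀ P, Ov l P → ∃ g : D.G, g.1 ∈ dec P ∧ ξ₁ g ≠ 1
  sgn : J = I ∨ ∃ ι : D.G, (∀ f, f ∈ J ↔ f ∈ I ∧ f ι = -1) ∧ (∀ f ∈ I, f ι = 1 ∨ f ι = -1) ∧
    ξ₁ ι = 1 ∧ J.Nonempty

/-- `χ` is the inverse of the conjugate of the character of the Tate module -/
def Ps (χ : D.G →* Qa D.a D.b ℤ_[pp]) : Prop := ∀ (n : ℕ) (g : D.G) β, D.Ac (pp ^ n) g β →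
  qm _ _ (toZModPow n) (χ g) * qm _ _ (Int.castRingHom (Zn n)) (star β) = 1

/-- the embedding of the completed order -/
structure Em (C : Cr k) (e : Qa D.a D.b ℤ_[pp] →+* Qa a b C.O) : Prop where
  st : ∀ x, e (star x) = star (e x)
  lin : ∀ x : ℤ_[pp], e (algebraMap _ _ x) = algebraMap C.O _ (algebraMap _ _ x)
  bas : ∃ y : Fin C.pb.dim → Qa a b C.O,
    Function.Bijective fun x : Fin C.pb.dim → Qa D.a D.b ℤ_[pp] => ∑ i, e (x i) * y i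

/-- a prime of `M` which splits in the field of the points of order `pp` -/
def Ax (M : ℕ) : Prop := ∃ l ∈ M.primeFactors, ∃ Q, Ov l Q ∧ ∀ g ∈ dec Q, g ∈ D.Hf pp

/-- the multiplier of the class -/
def Mu (μ : D.O) : Prop := star μ * D.η = -μ ∧ ¬ (pp : D.O) ∣ μ

/-- the point with coordinate `x` -/
def pt (n : ℕ) (x : Qa D.a D.b (Zn n)) : Pt A B := D.act ⟨x.re.val, x.im.val⟩ (D.tp (pp ^ n))

/-- the class over the quadratic field -/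
def yE (χ : D.G →* Qa D.a D.b ℤ_[pp]) (μ α m : D.O) (n : ℕ) (g : D.G) : Pt A B :=
  D.pt n (qm _ _ (Int.castRingHom (Zn n)) μ * D.zc α m (algebraMap (Zn n) _) (qc (toZModPow n) χ) g)

/-- **the zeta element** -/
def zE (χ : D.G →* Qa D.a D.b ℤ_[pp]) (μ α m : D.O) (n : ℕ) : GQ → Pt A B :=
  D.xt fun g => D.yE χ μ α m n g + ga D.c (D.yE χ μ α m n (D.cg g))

end Cd

/-! ## rows: algebra -/

def COR : Prop := ∀ k, Nonempty (Cr k)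

def RNG : Prop := ∀ (R : Type) [CommRing R] [IsLocalRing R] [IsNoetherianRing R]
  [IsAdicComplete (maximalIdeal R) R], (R →+* ZMod pp) → Nonempty (Tl R)

def CPL : Prop := ∀ k (C : Cr k), IsNoetherianRing C.R ∧ IsAdicComplete (maximalIdeal C.R) C.R ∧
  IsAdicComplete (maximalIdeal C.O) C.O ∧
  ∃ e : C.R →+* C.O, C.Ev e ∧ e PowerSeries.X = C.pb.gen - 1

/-- **counting** -/
def LAO : Prop := ∀ (O : Type) [CommRing O] [IsDomain O] [IsDiscreteValuationRing O]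
  [Finite (ResidueField O)] (r : ℕ) (Q : Matrix (Fin r) (Fin (r + 2)) O) (v w : Fin (r + 2) → O)
  (t β : O) (L : Type) [CommRing L] [Finite L] (f : O →+* L) (e : ℕ), Function.Surjective f →
  t ≠ 0 → Q *ᵥ v = 0 → Q *ᵥ w = 0 →
  (∀ C, t * (C * cl v w).det = β * (st finSumFinEquiv.symm Q C).det) →
  e * Nat.card (O ⧸ Ideal.span {t}) < Nat.card L →
  Nat.card L ^ 2 ≤ e * Nat.card (span L {f ∘ v, f ∘ w}) →
  β ≠ 0 ∧ Nat.card (span L {f ∘ v, f ∘ w}) * Nat.card (Kr (Q.map f)) *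
      Nat.card (O ⧸ Ideal.span {β}) = Nat.card L ^ 4 * Nat.card (O ⧸ Ideal.span {t}) ∧
    ∀ (L' : Type) [CommRing L'] [Finite L'] (f' : O →+* L'), Function.Surjective f' →
      Nat.card (Kr (Q.map f')) ≤ Nat.card L' ^ 2 * (e * Nat.card (O ⧸ Ideal.span {t}))

/-! ## rows: the main conjecture in a family -/

/-- induction -/
def IND : Prop := ∀ A B (D : Cd A B), D.Cf → ∀ (a b : ℤ) (R : Type) [CommRing R]
  (Φ : D.G →* Qa a b R), D.Cj Φ → (∃ ρ, D.Id Φ ρ) ∧ ∀ ρ (y : D.G → Qa a b R) (S : Finset ℕ),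
    D.Id Φ ρ → D.Co Φ y → (∀ l P i, Ov l P → l ∉ S → Inert P i → ∃ h : i ∈ D.G, y ⟨i, h⟩ = 0) →
    D.xt (fun g => vc (D.tc y g)) ∈ Zq R S ρ D.c

/-- the Artin symbol -/
def GAX : Prop := ∀ A B (D : Cd A B), D.Cf → ∀ M s : ℕ, M ≠ 0 → 1 < s → s.Coprime (6 * M * pp) →
  ∃ g, D.Ga M s g

/-- **the divisibility at one point** -/
def DVO : Prop := ∀ A B (D : Cd A B) N M, D.Cf → D.Cg N → D.Rw → D.Fm N M →
  ∀ k (C : Cr k) (a b : ℤ) (t : Tl C.R) (χ : D.G →* Qa a b C.R) s g r Q v w,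
    IsUnit (b ^ 2 + 4 * a : C.O) → D.Gf t M χ → D.Ga M s g → D.Pz t M s χ (r := r) Q v w →
    ∀ (O : Type) [CommRing O] [IsDomain O] [IsDiscreteValuationRing O] (φ : C.R →+* O) (ω₀ : O),
      ω₀ * ω₀ = a + b * ω₀ → Function.Injective φ → (∃ x, ¬ IsUnit x ∧ IsUnit (φ x)) →
      ∀ E, φ (sf s χ g * (st finSumFinEquiv.symm (lm t.lim Q) E).det) ∣
        φ (E * cl (lv t.lim v) (lv t.lim w)).det

/-- from the points to the ring -/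
def GLU : Prop := ∀ k (C : Cr k) (a b : ℤ) (x y : C.R), IsUnit (b ^ 2 + 4 * a : C.O) →
  (∀ (O : Type) [CommRing O] [IsDomain O] [IsDiscreteValuationRing O] (φ : C.R →+* O) (ω₀ : O),
    ω₀ * ω₀ = a + b * ω₀ → Function.Injective φ → (∃ x, ¬ IsUnit x ∧ IsUnit (φ x)) → φ x ∣ φ y) →
  x ∣ y

/-- **the quotient `α` in the main conjecture and its values** -/
def FMO : Prop := ∀ A B (D : Cd A B) N M, D.Cf → D.Cg N → D.Rw → D.Fm N M →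
  ∀ k (C : Cr k) (a b : ℤ) (t : Tl C.R) (χ : D.G →* Qa a b C.R) s g,
    IsUnit (b ^ 2 + 4 * a : C.O) → D.Gf t M χ → D.Ga M s g →
    ∃ α : C.R, ∀ e, C.Ev e → D.Mo C M s (qc e χ) (sf s (qc e χ) g * e α)

/-- **the anchor** -/
def ANC : Prop := ∀ A B (D : Cd A B) N M, D.Cf → D.Eu → D.Es pp → D.Fm N M →
  ∀ k (C : Cr k) (a b : ℤ) (x : D.An C a b M) s g (α : (D.G →* Qa a b C.O) → C.O),
    IsUnit (b ^ 2 + 4 * a : C.O) → D.Ga M s g →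
    (∀ f ∈ x.J, D.Mo C M s (f * x.ξ) (sf s (f * x.ξ) g * α f)) → ∀ f ∈ x.J, IsUnit (α f)

/-- the character of the Tate module -/
def PSI : Prop := ∀ A B (D : Cd A B), D.Cf → ∃ χ, D.Ps χ

/-- **the families** -/
def FAM : Prop := ∀ A B (D : Cd A B) N χ₀, D.Cf → D.Cg N → D.Ps χ₀ → ∀ M₀ : ℕ, M₀ ≠ 0 →
  ∃ (M k : ℕ) (C : Cr k) (a b : ℤ) (t : Tl C.R) (e : Qa D.a D.b ℤ_[pp] →+* Qa a b C.O)
    (x : D.An C a b M) (F : (D.G →* Qa a b C.O) → D.G →* Qa a b C.R) (e₀ e₁ : C.R →+* C.O),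
    D.Fm N M ∧ (∃ n, M₀ ∣ M * pp ^ n) ∧ D.Ax M ∧ IsUnit (b ^ 2 + 4 * a : C.O) ∧ D.Em C e ∧
    C.Ev e₀ ∧ C.Ev e₁ ∧ (∀ f ∈ x.J, D.Gf t M (F f) ∧ qc e₁ (F f) = f * x.ξ) ∧
    ∃ f ∈ x.J, qc e₀ (F f) = e.toMonoidHom.comp χ₀

/-! ## rows: the descent -/

/-- **the reciprocity laws** -/
def RR : Prop := ∀ A B (D : Cd A B) N M χ s g μ, D.Cf → D.Cg N → D.Eu → D.Es pp → D.Fm N M →
  D.Ps χ → D.Ga M s g → D.Mu μ →
  ∃ (P : Ideal (𝓞 Qb)) (ι : Qb →+* ℂ_[pp]) (lg : P014T.Wm.Fx A B (dec P) →+ K) (ρ : ℚ) (m₀ : ℕ),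
    Ov pp P ∧ Ah.Ind ι P ∧ Lc.Lk ι lg ∧ sf s χ g ≠ 0 ∧
    P014T.Rk.Lw (al A B) (cS (Sb M) 1) = ρ * w0 A B ∧ ∀ m n, m₀ ≤ m → ∃ n₁, ∀ n', n₁ ≤ n' →
      Ct.Zr D.el (Sb M) D.c P ι lg (sf s χ g) ρ m n (D.zE χ μ s (D.mp M n') n)

/-- **the numbers of one curve come from matrices** -/
def PZ : Prop := ∀ A B (D : Cd A B) N M χ s g μ, D.Cf → D.Cg N → D.Rw → D.Fm N M → D.Ax M →
  D.Ps χ → D.Ga M s g → D.Mu μ →
  ∃ (r n₀ : ℕ) (Q : Matrix (Fin r) (Fin (r + 2)) ℤ_[pp]) (v w : Fin (r + 2) → ℤ_[pp]),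
    Q *ᵥ v = 0 ∧ Q *ᵥ w = 0 ∧ (∃ γ, Gp A B D.c γ) ∧
    (∀ j, Top.cz A B (Sb M) D.c j = Nat.card (Kr (Q.map (toZModPow j)))) ∧
    ∀ γ j n n', Gp A B D.c γ → j ≤ n → n + n₀ ≤ n' → sg γ n j (D.zE χ μ s (D.mp M n') n) =
      Nat.card (span (Zn j) {toZModPow j ∘ v, toZModPow j ∘ w})

/-- **the curve and its twist together** -/
def SUM : Prop := ∀ A B A' B' (D : Cd A B) (D' : Cd A' B') e i N M χ χ' s g μ μ', Tw D D' e i →
  D.Cf → D'.Cf → D.Cg N → D.Rw → D.Fm N M → D.Ps χ → D'.Ps χ' → D.Ga M s g → D.Mu μ → D'.Mu μ' →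
  ∀ k (C : Cr k) (a b : ℤ) (e₀ : Qa D.a D.b ℤ_[pp] →+* Qa a b C.O),
    IsUnit (b ^ 2 + 4 * a : C.O) → D.Em C e₀ → ∃ n₀, ∀ n n' γ γ', n + n₀ ≤ n' →
    Gp A B D.c γ → Gp A' B' D.c γ' → ∃ ρ : GQ →* M2 (C.L n),
      D.Tr (D.mp M n') (qc (C.rd n) (e₀.toMonoidHom.comp χ)) ∧
      D.Id (D.aq (C.io n) (qc (C.rd n) (e₀.toMonoidHom.comp χ))) ρ ∧
      sz ρ (D.xz s (D.mp M n') (C.io n) (qc (C.rd n) (e₀.toMonoidHom.comp χ))) ^ 2 =
        (sg γ n n (D.zE χ μ s (D.mp M n') n) * sg γ' n n (D'.zE χ' μ' s (D'.mp M n') n)) ^ C.pb.dim ∧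
      Nat.card (Zq (C.L n) (Sb M) ρ D.c) ^ 2 =
        (Top.cz A B (Sb M) D.c n * Top.cz A' B' (Sb M) D.c n) ^ C.pb.dim

/-- **zeta elements for the curve or for its twist** -/
def KTX : Prop := ∀ A B A' B' (D : Cd A B) (D' : Cd A' B') e i N N' M χ s g, Tw D D' e i →
  D.Cf → D'.Cf → D.Cg N → D'.Cg N' → D.Eu → D'.Eu → D.Es pp → D'.Es pp → D.Fm N M → D'.Fm N' M →
  D.Ax M → D.Ps χ → D.Ga M s g →
  ∀ k (C : Cr k) (a b : ℤ) (e₀ : Qa D.a D.b ℤ_[pp] →+* Qa a b C.O) (α : C.O),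
    IsUnit (b ^ 2 + 4 * a : C.O) → D.Em C e₀ → IsUnit α →
    D.Mo C M s (e₀.toMonoidHom.comp χ) (sf s (e₀.toMonoidHom.comp χ) g * α) →
    (∃ β, Kt D.el (Sb M) β ∧ 1 ≤ ‖β‖) ∨ ∃ β, Kt D'.el (Sb M) β ∧ 1 ≤ ‖β‖

end Vale.Agent.P014X
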